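import Vale.Agent.P039.Bn.L2.Defs
import Vale.Agent.P039.Bz.Stmt

/-! # P039-B: the planar input `Bz.CycStmt` from the alternating cycles (helper869)

Dictionary between 879's abstract incidence `Bz.Fo` and 675's `IsMatch`, `IsAlt`. -/

set_option linter.all false

namespace Vale.Agent.P039.Bn.H869

open Finset Vale.Agent.P039.Bz

section dict

variable {B W V : Type} {M : PMap B W V} {b0 : B}

open Classical in
/-- extension by `0` -/
noncomputable def ext (b0 : B) (f : BOff b0 → Fin 3) (b : B) : Fin 3 :=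
  if h : b ≠ b0 then f ⟨b, h⟩ else 0

@[simp] theorem ext_val (f : BOff b0 → Fin 3) (b : BOff b0) : ext b0 f b.1 = f b := by
  unfold ext
  rw [dif_pos b.2]

theorem ext_mk (f : BOff b0 → Fin 3) (b : B) (h : b ≠ b0) : ext b0 f b = f ⟨b, h⟩ :=
  ext_val f ⟨b, h⟩

theorem Fo_some {b : BOff b0} {j : Fin 3} {v : VOff M b0} :
    Fo M b0 b j = some v ↔ M.c j b.1 = v.1 := by
  unfold Fo
  constructor
  · intro h
    split_ifs at h with h1
    rw [← Option.some.inj h]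
  · intro h
    have h1 : ∀ i, M.c i b0 ≠ M.c j b.1 := fun i hi => v.2 i (hi.trans h)
    rw [dif_pos h1]
    exact congrArg some (Subtype.ext h)

/-- abstract matching ⇒ 675's `IsMatch` -/
theorem isMatch_ext {f : BOff b0 → Fin 3} {e : BOff b0 ≃ VOff M b0}
    (h : ∀ b, Fo M b0 b (f b) = some (e b)) : M.IsMatch b0 (ext b0 f) where
  inj b b' hb hb' hc := by
    have h1 := Fo_some.1 (h ⟨b, hb⟩)
    have h2 := Fo_some.1 (h ⟨b', hb'⟩)
    rw [ext_mk f b hb, ext_mk f b' hb'] at hc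
    have h3 : e ⟨b, hb⟩ = e ⟨b', hb'⟩ := Subtype.ext (h1.symm.trans (hc.trans h2))
    exact congrArg Subtype.val (e.injective h3)
  surj v hv := by
    refine ⟨(e.symm ⟨v, hv⟩).1, (e.symm ⟨v, hv⟩).2, ?_⟩
    rw [ext_val]
    have h1 := Fo_some.1 (h (e.symm ⟨v, hv⟩))
    rw [h1, Equiv.apply_symm_apply]
  avoid b hb j hj := by
    have h1 := Fo_some.1 (h ⟨b, hb⟩)
    rw [ext_mk f b hb] at hj
    exact (e ⟨b, hb⟩).2 j (hj.symm.trans h1)

/-- 675's `IsMatch` ⇒ abstract matching -/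
theorem mat_of_isMatch {f : B → Fin 3} (h : M.IsMatch b0 f) :
    Mat (Fo M b0) (fun b : BOff b0 => f b.1) := by
  let F0 : BOff b0 → VOff M b0 := fun b =>
    ⟨M.c (f b.1) b.1, fun j hj => h.avoid b.1 b.2 j hj.symm⟩
  have hb : Function.Bijective F0 := by
    constructor
    · intro b b' hbb
      exact Subtype.ext (h.inj b.1 b'.1 b.2 b'.2 (congrArg Subtype.val hbb))
    · intro v
      obtain ⟨b, hb, hb'⟩ := h.surj v.1 v.2
      exact ⟨⟨b, hb⟩, Subtype.ext hb'⟩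
  exact ⟨Equiv.ofBijective F0 hb, fun b => Fo_some.2 rfl⟩

open Classical in
/-- successor -/
noncomputable def nxB (σ : Equiv.Perm (BOff b0)) (b : B) : B :=
  if h : b ≠ b0 then (σ ⟨b, h⟩).1 else b0

@[simp] theorem nxB_val (σ : Equiv.Perm (BOff b0)) (b : BOff b0) : nxB σ b.1 = (σ b).1 := by
  unfold nxB
  rw [dif_pos b.2]

theorem nxB_mk (σ : Equiv.Perm (BOff b0)) (b : B) (h : b ≠ b0) : nxB σ b = (σ ⟨b, h⟩).1 :=
  nxB_val σ ⟨b, h⟩

/-- a set of blacks off the root, as a set of blacks -/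
def up (C : Finset (BOff b0)) : Finset B := C.map ⟨Subtype.val, Subtype.val_injective⟩

theorem mem_up {C : Finset (BOff b0)} {b : B} : b ∈ up C ↔ ∃ h : b ≠ b0, (⟨b, h⟩ : BOff b0) ∈ C := by
  unfold up
  rw [mem_map]
  constructor
  · rintro ⟨x, hx, rfl⟩
    exact ⟨x.2, hx⟩
  · rintro ⟨h, hb⟩
    exact ⟨⟨b, h⟩, hb, rfl⟩

theorem root_notMem (C : Finset (BOff b0)) : b0 ∉ up C := by
  rw [mem_up]
  rintro ⟨h, -⟩
  exact h rfl

theorem card_up (C : Finset (BOff b0)) : (up C).card = C.card := card_map _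

/-- **two disjoint matchings give alternating cycles** -/
theorem isAlt [Finite B] {f g : BOff b0 → Fin 3} {e e' : BOff b0 ≃ VOff M b0}
    (hf : ∀ b, Fo M b0 b (f b) = some (e b)) (hg : ∀ b, Fo M b0 b (g b) = some (e' b))
    (hd : ∀ b, f b ≠ g b) (σ : Equiv.Perm (BOff b0)) (hσ : σ = e.trans e'.symm)
    (C : Finset (BOff b0)) (b1 : BOff b0) (hC : ∀ b, b ∈ C ↔ σ.SameCycle b1 b) :
    M.IsAlt (ext b0 f) (ext b0 g) (up C) (nxB σ) where
  ne b hb := by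
    obtain ⟨h, -⟩ := mem_up.1 hb
    rw [ext_mk f b h, ext_mk g b h]
    exact hd _
  nonempty := ⟨b1.1, mem_up.2 ⟨b1.2, (hC _).2 (Equiv.Perm.SameCycle.refl _ _)⟩⟩
  maps b hb := by
    obtain ⟨h, hs⟩ := mem_up.1 hb
    rw [nxB_mk σ b h]
    exact mem_up.2 ⟨(σ ⟨b, h⟩).2, (hC _).2 (Equiv.Perm.sameCycle_apply_right.2 ((hC _).1 hs))⟩
  face b hb := by
    obtain ⟨h, -⟩ := mem_up.1 hb
    rw [nxB_mk σ b h, ext_val, ext_mk f b h]
    have h1 := Fo_some.1 (hf ⟨b, h⟩)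
    have h2 := Fo_some.1 (hg (σ ⟨b, h⟩))
    have h3 : e' (σ ⟨b, h⟩) = e ⟨b, h⟩ := by rw [hσ]; simp
    rw [h3] at h2
    exact h1.trans h2.symm
  inj b hb b' hb' hc := by
    obtain ⟨h, -⟩ := mem_up.1 hb
    obtain ⟨h', -⟩ := mem_up.1 hb'
    exact (isMatch_ext hg).inj b b' h h' hc
  nxinj b hb b' hb' hc := by
    obtain ⟨h, -⟩ := mem_up.1 hb
    obtain ⟨h', -⟩ := mem_up.1 hb'
    rw [nxB_mk σ b h, nxB_mk σ b' h'] at hc
    exact congrArg Subtype.val (σ.injective (Subtype.ext hc))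
  single X hX hcl b hb := by
    obtain ⟨b2, hb2, hX2⟩ := hX
    obtain ⟨h2, hs2⟩ := mem_up.1 hb2
    obtain ⟨h, hs⟩ := mem_up.1 hb
    have hs3 : σ.SameCycle ⟨b2, h2⟩ ⟨b, h⟩ := ((hC _).1 hs2).symm.trans ((hC _).1 hs)
    obtain ⟨n, -, hn⟩ := hs3.exists_pow_eq'
    have key : ∀ n : ℕ, ((σ ^ n) ⟨b2, h2⟩).1 ∈ X ∧ (σ ^ n) ⟨b2, h2⟩ ∈ C := by
      intro n
      induction n with
      | zero => exact ⟨hX2, hs2⟩
      | succ n ih =>
        rw [pow_succ', Equiv.Perm.mul_apply]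
        have hm : σ ((σ ^ n) ⟨b2, h2⟩) ∈ C :=
          (hC _).2 (Equiv.Perm.sameCycle_apply_right.2 ((hC _).1 ih.2))
        refine ⟨?_, hm⟩
        have h3 := hcl _ (mem_up.2 ⟨((σ ^ n) ⟨b2, h2⟩).2, ih.2⟩) ih.1
        rwa [nxB_val] at h3
    have h4 := (key n).1
    rwa [hn] at h4

theorem eps_sub {i j : Fin 3} (h : i ≠ j) :
    Bz.eps (j - i) = if j - i = 1 then 1 else -1 := by
  revert i j
  decide

/-- **443's `cyc_pmap` gives 879's `Cyc`** -/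
theorem cyc_of [Fintype B] [DecidableEq B] [DecidableEq (BOff b0)] [Fintype (BOff b0)]
    (h : ∃ u : B → Fin 3 → ℤ, ∀ (f g : B → Fin 3) (S : Finset B) (nx : B → B),
      M.IsAlt f g S nx → b0 ∉ S → M.IsMatch b0 g →
        Odd S.card ∧ 3 ≤ S.card ∧ 0 < (-1) ^ ((S.card - 3) / 2) *
          (∏ b ∈ S, (if g b - f b = 1 then (1 : ℤ) else -1)) * ∑ b ∈ S, (u b (f b) - u b (g b))) :
    Cyc (Fo M b0) := by
  obtain ⟨u, hu⟩ := h
  refine ⟨fun b j => (u b.1 j : ℝ), ?_⟩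
  intro f g e e' hf hg hd C b1 hC
  obtain ⟨hodd, h3, hpos⟩ := hu (ext b0 f) (ext b0 g) (up C) (nxB (e.trans e'.symm))
    (isAlt hf hg hd _ rfl C b1 hC) (root_notMem C) (isMatch_ext hg)
  rw [card_up] at hodd h3 hpos
  obtain ⟨m, hm⟩ : ∃ m : ℕ, C.card = 2 * m + 3 := by
    obtain ⟨n, hn⟩ := hodd
    exact ⟨n - 1, by omega⟩
  refine ⟨m, hm, ?_⟩
  have hm2 : (C.card - 3) / 2 = m := by omega
  rw [hm2] at hpos
  unfold up at hpos
  rw [prod_map, sum_map] at hpos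
  simp only [Function.Embedding.coeFn_mk, ext_val] at hpos
  have hprod : ∏ b ∈ C, (if g b - f b = 1 then (1 : ℤ) else -1) = ∏ b ∈ C, Bz.eps (g b - f b) :=
    prod_congr rfl fun b _ => (eps_sub (hd b)).symm
  rw [hprod] at hpos
  have hR : (0 : ℝ) < (((-1) ^ m * (∏ b ∈ C, Bz.eps (g b - f b)) *
      ∑ b ∈ C, (u b.1 (f b) - u b.1 (g b)) : ℤ) : ℝ) := Int.cast_pos.2 hpos
  push_cast at hR ⊢
  exact hR

end dict

end Vale.Agent.P039.Bn.H869
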