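import Vale.Agent.P039.Bn.H869.CycStmt
import Vale.Agent.P039.Bn.L2.T2

/-! # P039-B: `Bz.CycStmt` (L2 + L3) is a theorem (helper869) -/

set_option linter.all false

namespace Vale.Agent.P039.Bn.H869

open Vale.Agent.P039.Bz

/-- **`Bz.CycStmt`** -/
theorem cycStmt : CycStmt :=
  cycStmt_of fun _ _ _ _ _ _ _ _ _ M => M.t2

end Vale.Agent.P039.Bn.H869
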