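import Vale.Agent.P039.Bn.H869.Cyc
import Vale.Agent.P039.Bn.L2.T1
import Vale.Agent.P039.H443.L3Q

/-! # P039-B: `Bz.CycStmt` from T1 (landed) and T2 (helper869) -/

set_option linter.all false

namespace Vale.Agent.P039.Bn.H869

open Vale.Agent.P039.Bz

/-- **`Bz.CycStmt` from T2** -/
theorem cycStmt_of
    (h2 : ∀ (B W V : Type) [Fintype B] [Fintype W] [Fintype V] [DecidableEq B] [DecidableEq W]
      [DecidableEq V] (M : PMap B W V), M.T2) : CycStmt := by
  classical
  intro B W V _ _ _ hB M hM b0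
  have h1 : M.T1 := M.t1
  obtain ⟨u, hu⟩ := H443.cyc_pmap (M := M) h1 (h2 B W V M) hM b0
  exact cyc_of (M := M) (b0 := b0) ⟨u, hu⟩

end Vale.Agent.P039.Bn.H869
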