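import Vale.Agent.P039.Bn.H869.Cyc
import Vale.Agent.P039.Bt.H454.Step1
import Vale.Agent.P039.Bz.Conv

/-! # P039-B: `Bz.HamStmt` (L6 = STEP 1) from 454's `step1` (helper869) -/

set_option linter.all false

namespace Vale.Agent.P039.Bn.H869

open Vale.Agent.P039.Bz

theorem f3 {i j f : Fin 3} (hi : i ≠ f) (hj : j ≠ f) (hij : i ≠ j) :
    (i = f + 1 ∧ j = f + 2) ∨ (i = f + 2 ∧ j = f + 1) := by
  revert i j f
  decide

/-- **`Bz.HamStmt`** -/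
theorem hamStmt : HamStmt := by
  classical
  intro B W V _ _ _ M hM b0 f hf hg i
  obtain ⟨φ, hφ⟩ := hf
  have hm := isMatch_ext hφ
  obtain ⟨m, h0, -, hbij, hconn⟩ := Bt.H454.step1 M hM b0 (ext b0 f) hm.inj hm.avoid (by
    intro U hU hcl
    by_contra hne
    obtain ⟨v, hv⟩ := Finset.nonempty_iff_ne_empty.2 hne
    obtain ⟨b, i, j, hi, hj, ⟨v1, hv1, hF⟩, hF2⟩ :=
      hg {v : VOff M b0 | v.1 ∈ U} ⟨⟨v, hU v hv⟩, hv⟩
    have h1 : M.c i b.1 ∈ U := by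
      rw [Fo_some.1 hF]
      exact hv1
    have h2 : M.c j b.1 ∉ U := by
      intro h
      exact hF2 ⟨M.c j b.1, hU _ h⟩ h (Fo_some.2 rfl)
    have hij : i ≠ j := by
      rintro rfl
      exact h2 h1
    have h3 := hcl b.1 b.2
    rw [ext_val] at h3
    rcases f3 hi hj hij with ⟨rfl, rfl⟩ | ⟨rfl, rfl⟩
    · exact h2 (h3.1 h1)
    · exact h2 (h3.2 h1)) i
  exact ⟨m, (hamM_iff_eqvGen (M := M) (m := m)).2 ⟨hbij, fun x y => (hconn x y).mono (by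
    rintro x y ⟨i, b, h1, h2, h3⟩
    exact ⟨i, b, h1, h2, h3⟩)⟩, h0⟩

end Vale.Agent.P039.Bn.H869
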